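import Vale.Agent.N220.Main

/-!
The nearby Lagrangian conjecture fails stably over an infinite family of quotients of products of
spheres, and in every dimension from 33 on.
-/

open scoped ContDiff Manifold

namespace Vale.Agent.Results.P220.A0Stable

open Vale.Agent.P220I Vale.Agent.N220

/-- (1) For all `a ≥ 2`, `b ≥ 9` a closed connected manifold `Q`, quotient of
`S^(2a-1) × S^(2b-1) × S^13` by a free action of `C₅ × C₅`, has an exotic Lagrangian all of whose
pull-backs under submersions with a section are exotic.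
(2) The conjecture fails in every dimension `n ≥ 33`.  (3) Hamiltonian flows exist. -/
theorem result :
    ∀ (E : Type) [NormedAddCommGroup E] [NormedSpace ℝ E] [FiniteDimensional ℝ E],
      (∀ a b : ℕ, 2 ≤ a → 9 ≤ b → Module.finrank ℝ E = 2 * a + 2 * b + 11 →
        ∃ (Q : Type) (_ : TopologicalSpace Q) (_ : T2Space Q) (_ : CompactSpace Q)
          (_ : ConnectedSpace Q) (_ : ChartedSpace E Q) (_ : IsManifold 𝓘(ℝ, E) ∞ Q),
          IsQuotient (EuclideanSpace ℂ (Fin a)) (EuclideanSpace ℂ (Fin b))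
            (EuclideanSpace ℝ (Fin 14)) Q ∧ StablyExotic E Q) ∧
      (33 ≤ Module.finrank ℝ E →
        ∃ (Q : Type) (_ : TopologicalSpace Q) (_ : T2Space Q) (_ : CompactSpace Q)
          (_ : ConnectedSpace Q) (_ : ChartedSpace E Q) (_ : IsManifold 𝓘(ℝ, E) ∞ Q),
          ¬ Nearby E Q) ∧
      ∀ (Q : Type) [TopologicalSpace Q] [T2Space Q] [CompactSpace Q] [ConnectedSpace Q]
        [ChartedSpace E Q] [IsManifold 𝓘(ℝ, E) ∞ Q], Flows E Q :=
  fun E _ _ _ => ⟨fun _ _ => stable, all_dim, fun Q _ _ _ _ _ _ => flows E Q⟩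

end Vale.Agent.Results.P220.A0Stable
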